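import Vale.Agent.P174.Abelian

/-!
Howie's conjecture passes through extensions with locally indicable quotient; in particular it
holds for abelian-by-(locally indicable) groups.
-/

open Vale.Agent.P174

namespace Vale.Agent.Results.P174.IndicableExtension

universe u v

theorem result :
    (∀ (G : Type u) [Group G] (Q : Type v) [Group Q] (π : G →* Q),
      (∀ L : Subgroup Q, L.FG → L ≠ ⊥ →
        ∃ φ : L →* Multiplicative ℤ, Function.Surjective φ) →
      (SystemsSolvable ℚ π.ker → SystemsSolvable ℚ G) ∧
        ((∀ a b : π.ker, a * b = b * a) → SystemsSolvable ℚ G)) ∧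
    (∀ (p : ℕ) [Fact p.Prime] (G : Type u) [Group G] (Q : Type v) [Group Q] (π : G →* Q),
      (∀ L : Subgroup Q, L.FG → L ≠ ⊥ →
        ∃ φ : L →* Multiplicative (ZMod p), Function.Surjective φ) →
      (SystemsSolvable (ZMod p) π.ker → SystemsSolvable (ZMod p) G) ∧
        ((∀ a b : π.ker, a * b = b * a) → SystemsSolvable (ZMod p) G)) := by
  refine ⟨fun G _ Q _ π hQ => ?_, fun p _ G _ Q _ π hQ => ?_⟩
  · have hI : Indicable ℚ Q := by
      intro L hL hne
      obtain ⟨φ, hφ⟩ := hQ L hL hne
      refine ⟨(AddMonoidHom.toMultiplicative (Int.castAddHom ℚ)).comp φ, fun h => ?_⟩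
      obtain ⟨x, hx⟩ := hφ (Multiplicative.ofAdd 1)
      have := DFunLike.congr_fun h x
      simp [hx] at this
    exact ⟨systemsSolvable_of_ker π regular_rat hI, fun hc =>
      systemsSolvable_of_ker π regular_rat hI (systemsSolvable_of_comm clears_rat _ hc)⟩
  · have hI : Indicable (ZMod p) Q := by
      intro L hL hne
      obtain ⟨φ, hφ⟩ := hQ L hL hne
      refine ⟨φ, fun h => ?_⟩
      obtain ⟨x, hx⟩ := hφ (Multiplicative.ofAdd 1)
      rw [h] at hx
      exact one_ne_zero (Multiplicative.ofAdd.injective hx.symm)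
    exact ⟨systemsSolvable_of_ker π (regular_zmod p) hI, fun hc =>
      systemsSolvable_of_ker π (regular_zmod p) hI
        (systemsSolvable_of_comm (clears_zmod p) _ hc)⟩

end Vale.Agent.Results.P174.IndicableExtension
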